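import Mathlib
import Vale.Agent.Lib.P322.Chain
import Vale.Agent.Lib.P322.Universal

namespace Vale.Agent.Lib.P322

open Finset

/-- the entropy functional of the noisy version is at most `2 psi (1 - 2e)` times the clean one -/
lemma ent_nop_le_two_psi (n : ℕ) (e : ℝ) (h0 : 0 ≤ e) (h1 : e ≤ 1 / 2) (u : (Fin n → Bool) → ℝ)
    (hu : ∀ x, 0 ≤ u x) : ent n (nop n e u) ≤ 2 * psi (1 - 2 * e) * ent n u := by
  have a1 := ent_nop_le e h0 h1 n u hu
  have a2 := Xi_le_clean e h0 (by linarith) n u hu
  have a3 := Xi_clean_le n u hu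
  have hpsi : 0 ≤ psi (1 - 2 * e) := psi_nonneg (by rw [abs_le]; constructor <;> linarith)
  have a4 : psi (1 - 2 * e) * Xi e n u ≤ psi (1 - 2 * e) * (2 * ent n u) :=
    mul_le_mul_of_nonneg_left (le_trans a2 a3) hpsi
  linarith

lemma eta_ind {n : ℕ} (f : (Fin n → Bool) → Bool) (x : Fin n → Bool) : eta (ind f x) = 0 := by
  unfold ind
  split_ifs
  · exact eta_one
  · exact eta_zero

lemma eta_one_sub_ind {n : ℕ} (f : (Fin n → Bool) → Bool) (x : Fin n → Bool) :
    eta (1 - ind f x) = 0 := by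
  unfold ind
  split_ifs
  · rw [sub_self]
    exact eta_zero
  · rw [sub_zero]
    exact eta_one

lemma ent_ind_add (n : ℕ) (f : (Fin n → Bool) → Bool) :
    ent n (ind f) + ent n (fun x => 1 - ind f x) = Real.binEntropy (avg n (ind f)) := by
  unfold ent
  have e1 : (fun x => eta (ind f x)) = fun _ => (0 : ℝ) := funext (fun x => eta_ind f x)
  have e2 : (fun x => eta (1 - ind f x)) = fun _ => (0 : ℝ) :=
    funext (fun x => eta_one_sub_ind f x)
  rw [e1, e2, avg_const, avg_one_sub, Real.binEntropy_eq_negMulLog_add_negMulLog_one_sub]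
  unfold eta Real.negMulLog
  ring

/-- the binary entropy, in nats, of a bias at most `1 / 8` is at most `1 / 2` -/
lemma binEntropy_le_half {p : ℝ} (hp0 : 0 ≤ p) (hp : p ≤ 1 / 8) : Real.binEntropy p ≤ 1 / 2 := by
  have hmono : Real.binEntropy p ≤ Real.binEntropy (1 / 8) := by
    have hs := Real.binEntropy_strictMonoOn
    refine hs.monotoneOn ?_ ?_ hp
    · rw [Set.mem_Icc]
      constructor
      · exact hp0
      · norm_num at hp ⊢
        linarith
    · rw [Set.mem_Icc]
      constructor <;> norm_num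
  have hval : Real.binEntropy (1 / 8) ≤ 1 / 2 := by
    unfold Real.binEntropy
    have e1 : ((1 : ℝ) / 8)⁻¹ = 2 ^ 3 := by norm_num
    have e2 : ((1 : ℝ) - 1 / 8)⁻¹ = 8 / 7 := by norm_num
    rw [e1, e2, Real.log_pow]
    have hl2 := Real.log_two_lt_d9
    have hl : Real.log (8 / 7) ≤ 8 / 7 - 1 := Real.log_le_sub_one_of_pos (by norm_num)
    push_cast
    nlinarith
  linarith

theorem ck_of_biased (n : ℕ) (e : ℝ) (h0 : 0 ≤ e) (h1 : e ≤ 1 / 2) (f : (Fin n → Bool) → Bool)
    (hb : 9 / 16 ≤ fmean n f ^ 2) : mutualInfo (joint n e f) ≤ 1 - h2 e := by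
  set p := avg n (ind f) with hp
  have hp0 : 0 ≤ p := avg_nonneg n _ (fun x => ind_nonneg f x)
  have hp1 : p ≤ 1 := by
    have h := avg_mono n (ind f) (fun _ => (1 : ℝ)) (fun x => ind_le_one f x)
    rw [avg_const] at h
    exact h
  rw [fmean_eq, ← hp] at hb
  -- the bias is extreme
  have hcase : p ≤ 1 / 8 ∨ 7 / 8 ≤ p := by
    by_contra hcon
    rw [not_or, not_le, not_le] at hcon
    nlinarith [hcon.1, hcon.2]
  have hH : Real.binEntropy p ≤ 1 / 2 := by
    rcases hcase with hc | hc
    · exact binEntropy_le_half hp0 hc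
    · rw [← Real.binEntropy_one_sub]
      exact binEntropy_le_half (by linarith) (by linarith)
  have hI := mutualInfo_joint n e h0 (by linarith) f
  have b1 := ent_nop_le_two_psi n e h0 h1 (ind f) (fun x => ind_nonneg f x)
  have b2 := ent_nop_le_two_psi n e h0 h1 (fun x => 1 - ind f x)
    (fun x => by have := ind_le_one f x; linarith)
  have hsum := ent_ind_add n f
  rw [← hp] at hsum
  have hpsi : 0 ≤ psi (1 - 2 * e) := psi_nonneg (by rw [abs_le]; constructor <;> linarith)
  have hpe := psi_eq (e := e) h0 (by linarith)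
  have hl : 0 < Real.log 2 := Real.log_pos (by norm_num)
  have hfin : mutualInfo (joint n e f) * Real.log 2 ≤ Real.log 2 - Real.binEntropy e := by
    have h3 : 2 * psi (1 - 2 * e) * (ent n (ind f) + ent n (fun x => 1 - ind f x))
        ≤ 2 * psi (1 - 2 * e) * (1 / 2) := by
      rw [hsum]
      exact mul_le_mul_of_nonneg_left hH (by linarith)
    rw [hI, ← hpe]
    linarith
  unfold h2
  rw [← sub_nonneg] at hfin ⊢
  have e2 : 1 - Real.binEntropy e / Real.log 2 - mutualInfo (joint n e f) =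
      (Real.log 2 - Real.binEntropy e - mutualInfo (joint n e f) * Real.log 2) / Real.log 2 := by
    field_simp
  rw [e2]
  exact div_nonneg hfin hl.le

end Vale.Agent.Lib.P322
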